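import Vale.Agent.P122.S.Core

/-! # P122 / S : the crude bound [CRUDE] (helper315) -/

namespace Vale.Agent.P122.S

open Vale.Agent.P122.C2

theorem kids_div {n : ℕ} {τ τ' : Z2} (h : τ' ∈ kids n τ) (k : Fin 2) : τ' k / 2 ^ n = τ k := by
  have h1 := (Fintype.mem_piFinset.1 h) k
  rw [Finset.mem_Ico] at h1
  have hp : (0 : ℤ) < 2 ^ n := by positivity
  apply le_antisymm
  · have : τ' k / 2 ^ n < τ k + 1 := Int.ediv_lt_of_lt_mul hp (by nlinarith [h1.2])
    omega
  · exact Int.le_ediv_of_mul_le hp (by nlinarith [h1.1])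

theorem kids_cap {n i : ℕ} {τ τ' : Z2} (hτ : Cap n i τ) (h : τ' ∈ kids n τ) : Cap n (i + 1) τ' := by
  intro k
  have h1 := (Fintype.mem_piFinset.1 h) k
  rw [Finset.mem_Ico] at h1
  obtain ⟨h2, h3⟩ := hτ k
  have hp : (0 : ℤ) < 2 ^ n := by positivity
  constructor
  · nlinarith [h1.1]
  · have h4 : τ k + 1 ≤ 2 ^ (i * n) := h3
    calc τ' k < 2 ^ n * (τ k + 1) := h1.2
      _ ≤ 2 ^ n * 2 ^ (i * n) := by gcongr
      _ = 2 ^ ((i + 1) * n) := by rw [← pow_add]; congr 1; ring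

theorem kids_card (n : ℕ) (τ : Z2) : (kids n τ).card = 2 ^ (2 * n) := by
  unfold kids
  rw [Fintype.card_piFinset]
  have : ∀ k : Fin 2, (Finset.Ico (2 ^ n * τ k) (2 ^ n * (τ k + 1))).card = 2 ^ n := by
    intro k
    rw [Int.card_Ico]
    have : (2 : ℤ) ^ n * (τ k + 1) - 2 ^ n * τ k = ((2 ^ n : ℕ) : ℤ) := by push_cast; ring
    rw [this, Int.toNat_natCast]
  simp only [this]
  simp
  ring

/-- the fibres of `(S, τ') ↦ (S.sg n).ch s n i τ'` -/
theorem fiber_card (s : ℕ → Z2 → Fin 2 → ℝ) (n i : ℕ) (U : Finset Nd) (N : Nd) :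
    ((U.sigma fun S => kids n S.τ).filter fun p => (p.1.sg n).ch s n i p.2 = N).card ≤ 2 ^ (4 * n) := by
  classical
  set P := (U.sigma fun S => kids n S.τ).filter fun p => (p.1.sg n).ch s n i p.2 = N with hP
  let r : (Σ _ : Nd, Z2) → ℤ × ℤ × ℤ := fun p => (p.1.o 0 % 2 ^ n, p.1.o 1 % 2 ^ n, p.1.T % 2 ^ (2 * n))
  have hmap : ∀ p ∈ P, r p ∈ (Finset.Ico (0:ℤ) (2 ^ n)) ×ˢ ((Finset.Ico (0:ℤ) (2 ^ n)) ×ˢ (Finset.Ico (0:ℤ) (2 ^ (2 * n)))) := by
    intro p _
    simp only [r, Finset.mem_product, Finset.mem_Ico]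
    exact ⟨⟨Int.emod_nonneg _ (by positivity), Int.emod_lt_of_pos _ (by positivity)⟩,
      ⟨Int.emod_nonneg _ (by positivity), Int.emod_lt_of_pos _ (by positivity)⟩,
      ⟨Int.emod_nonneg _ (by positivity), Int.emod_lt_of_pos _ (by positivity)⟩⟩
  have hinj : Set.InjOn r P := by
    rintro ⟨S, t⟩ hp ⟨S', t'⟩ hq he
    rw [Finset.mem_coe, hP, Finset.mem_filter, Finset.mem_sigma] at hp hq
    obtain ⟨⟨_, hp1⟩, hp2⟩ := hp
    obtain ⟨⟨_, hq1⟩, hq2⟩ := hq
    simp only at hp1 hq1 hp2 hq2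
    have h0 : (S.sg n).ch s n i t = (S'.sg n).ch s n i t' := hp2.trans hq2.symm
    simp only [r, Prod.mk.injEq] at he
    obtain ⟨e0, e1, e2⟩ := he
    have ht : t = t' := congrArg Nd.τ h0
    subst ht
    have hT : S.T / 2 ^ (2 * n) = S'.T / 2 ^ (2 * n) := congrArg Nd.T h0
    have hT' : S.T = S'.T := by
      rw [← Int.mul_ediv_add_emod S.T (2 ^ (2 * n)), ← Int.mul_ediv_add_emod S'.T (2 ^ (2 * n)), hT, e2]
    have ho : ∀ k, S.o k / 2 ^ n = S'.o k / 2 ^ n := by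
      intro k
      have := congrFun (congrArg Nd.o h0) k
      simp only [Nd.ch, Nd.sg] at this
      rw [hT', sub_eq_add_neg, sub_eq_add_neg, Int.floor_intCast_add, Int.floor_intCast_add] at this
      omega
    have ho' : S.o = S'.o := by
      funext k
      fin_cases k
      · have := ho 0
        show S.o 0 = S'.o 0
        rw [← Int.mul_ediv_add_emod (S.o 0) (2 ^ n), ← Int.mul_ediv_add_emod (S'.o 0) (2 ^ n), this, e0]
      · have := ho 1
        show S.o 1 = S'.o 1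
        rw [← Int.mul_ediv_add_emod (S.o 1) (2 ^ n), ← Int.mul_ediv_add_emod (S'.o 1) (2 ^ n), this, e1]
    have hτ : S.τ = S'.τ := by
      funext k
      rw [← kids_div hp1 k, ← kids_div hq1 k]
    have : S = S' := by
      ext1 <;> assumption
    subst this
    rfl
  refine (Finset.card_le_card_of_injOn r hmap hinj).trans ?_
  rw [Finset.card_product, Finset.card_product]
  simp only [Int.card_Ico, sub_zero]
  have h1 : ((2 : ℤ) ^ n).toNat = 2 ^ n := by
    have : (2 : ℤ) ^ n = ((2 ^ n : ℕ) : ℤ) := by push_cast; rfl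
    rw [this, Int.toNat_natCast]
  have h2 : ((2 : ℤ) ^ (2 * n)).toNat = 2 ^ (2 * n) := by
    have : (2 : ℤ) ^ (2 * n) = ((2 ^ (2 * n) : ℕ) : ℤ) := by push_cast; rfl
    rw [this, Int.toNat_natCast]
  rw [h1, h2]
  apply le_of_eq
  rw [show 4 * n = n + (n + 2 * n) by ring, pow_add, pow_add]

/-- top level: `a ≤ √Λ` -/
theorem ktop_le {C : ℝ} {n K : ℕ} {F : Amp C n K} {Λ : ℝ} (h : KTop F Λ) (S : Nd) : F.a K S ^ 2 ≤ Λ := by
  have h1 := h 0 ((1 / 2 : ℝ) ^ (K * n)) ((1 / 2 : ℝ) ^ (K * n)) (fun j => (S.o j : ℝ) / 2 ^ (K * n))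
    (fun j => F.s K S.τ j) {S} le_rfl le_rfl (pow_le_one₀ (by norm_num) (by norm_num)) ?_
  · rw [Finset.sum_singleton] at h1
    have h2 : ((1 / 2 : ℝ) ^ (K * n) * (1 / 2 : ℝ) ^ (K * n) * 2 ^ (2 * K * n)) = 1 := by
      rw [show 2 * K * n = K * n + K * n by ring, pow_add]
      have : (1 / 2 : ℝ) ^ (K * n) * 2 ^ (K * n) = 1 := by rw [← mul_pow]; norm_num
      calc (1 / 2 : ℝ) ^ (K * n) * (1 / 2 : ℝ) ^ (K * n) * (2 ^ (K * n) * 2 ^ (K * n))
          = ((1 / 2 : ℝ) ^ (K * n) * 2 ^ (K * n)) * ((1 / 2 : ℝ) ^ (K * n) * 2 ^ (K * n)) := by ring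
        _ = 1 := by rw [this]; norm_num
    rw [h2, mul_one] at h1
    exact h1
  · intro S' hS'
    rw [Finset.mem_singleton] at hS'
    subst hS'
    simp [fw, fn]

theorem crude : StCRUDE := by
  classical
  intro K C n hC
  refine ⟨(C ^ 3 * 2 ^ (4 * n) * 2 ^ (4 * n)) ^ K, by positivity, fun F Λ Q hΛ hQ X hX => ?_⟩
  have hQ0 : 0 ≤ Q := by simpa using hQ ∅
  have key : ∀ j : ℕ, j ≤ K → ∀ U : Finset Nd, (∀ S ∈ U, Cap n (K - j) S.τ) →
      ∑ S ∈ U, F.a (K - j) S ^ 3 ≤ (C ^ 3 * 2 ^ (4 * n) * 2 ^ (4 * n)) ^ j * (Real.sqrt Λ * Q) := by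
    intro j
    induction j with
    | zero =>
      intro _ U _
      rw [pow_zero, one_mul, Nat.sub_zero]
      calc ∑ S ∈ U, F.a K S ^ 3 ≤ ∑ S ∈ U, Real.sqrt Λ * F.a K S ^ 2 := by
            apply Finset.sum_le_sum
            intro S _
            have h1 : F.a K S ≤ Real.sqrt Λ := Real.le_sqrt_of_sq_le (ktop_le hΛ S)
            calc F.a K S ^ 3 = F.a K S * F.a K S ^ 2 := by ring
              _ ≤ Real.sqrt Λ * F.a K S ^ 2 := by gcongr
        _ = Real.sqrt Λ * ∑ S ∈ U, F.a K S ^ 2 := by rw [Finset.mul_sum]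
        _ ≤ Real.sqrt Λ * Q := by gcongr; exact hQ U
    | succ j ih =>
      intro hj U hU
      have hi : K - (j + 1) < K := by omega
      have hi1 : K - (j + 1) + 1 = K - j := by omega
      set i := K - (j + 1) with hidef
      have hstep : ∀ S ∈ U, F.a i S ^ 3 ≤ C ^ 3 * 2 ^ (4 * n) *
          ∑ τ' ∈ kids n S.τ, F.a (K - j) ((S.sg n).ch F.s n i τ') ^ 3 := by
        intro S hS
        have h1 : F.a i S ≤ C * ∑ τ' ∈ kids n S.τ, F.a (K - j) ((S.sg n).ch F.s n i τ') := by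
          have := (F.kid i S hi (hU S hS)).trans (F.L1 i S _ hi (hU S hS) (Finset.Subset.refl _))
          rwa [hi1] at this
        have h2 : (∑ τ' ∈ kids n S.τ, F.a (K - j) ((S.sg n).ch F.s n i τ')) ^ 3 ≤
            (2 ^ (4 * n) : ℝ) * ∑ τ' ∈ kids n S.τ, F.a (K - j) ((S.sg n).ch F.s n i τ') ^ 3 := by
          have h3 := pow_sum_div_card_le_sum_pow (s := kids n S.τ)
            (f := fun τ' => F.a (K - j) ((S.sg n).ch F.s n i τ')) (fun _ _ => F.a0 _ _) 2
          rw [kids_card] at h3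
          have h4 : (0 : ℝ) < ((2 ^ (2 * n) : ℕ) : ℝ) ^ 2 := by positivity
          rw [div_le_iff₀ h4] at h3
          refine h3.trans (le_of_eq ?_)
          have : (((2 ^ (2 * n) : ℕ) : ℝ)) ^ 2 = 2 ^ (4 * n) := by
            push_cast
            rw [← pow_mul]
            congr 1
            ring
          rw [this]
          ring
        calc F.a i S ^ 3 ≤ (C * ∑ τ' ∈ kids n S.τ, F.a (K - j) ((S.sg n).ch F.s n i τ')) ^ 3 := by
              gcongr
              exact F.a0 _ _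
          _ = C ^ 3 * (∑ τ' ∈ kids n S.τ, F.a (K - j) ((S.sg n).ch F.s n i τ')) ^ 3 := by ring
          _ ≤ C ^ 3 * ((2 ^ (4 * n) : ℝ) * ∑ τ' ∈ kids n S.τ, F.a (K - j) ((S.sg n).ch F.s n i τ') ^ 3) := by
              gcongr
          _ = _ := by ring
      have hcap : ∀ N ∈ (U.sigma fun S => kids n S.τ).image (fun p => (p.1.sg n).ch F.s n i p.2),
          Cap n (K - j) N.τ := by
        intro N hN
        obtain ⟨p, hp, rfl⟩ := Finset.mem_image.1 hN
        rw [Finset.mem_sigma] at hp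
        have := kids_cap (hU _ hp.1) hp.2
        rwa [hi1] at this
      calc ∑ S ∈ U, F.a i S ^ 3 ≤ ∑ S ∈ U, C ^ 3 * 2 ^ (4 * n) *
            ∑ τ' ∈ kids n S.τ, F.a (K - j) ((S.sg n).ch F.s n i τ') ^ 3 := Finset.sum_le_sum fun S hS => hstep S hS
        _ = C ^ 3 * 2 ^ (4 * n) * ∑ p ∈ U.sigma fun S => kids n S.τ,
              F.a (K - j) ((p.1.sg n).ch F.s n i p.2) ^ 3 := by
            rw [← Finset.mul_sum, Finset.sum_sigma]
        _ ≤ C ^ 3 * 2 ^ (4 * n) * (2 ^ (4 * n) * ((C ^ 3 * 2 ^ (4 * n) * 2 ^ (4 * n)) ^ j * (Real.sqrt Λ * Q))) := by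
            gcongr
            have e := Finset.sum_comp (s := U.sigma fun S => kids n S.τ) (fun N : Nd => F.a (K - j) N ^ 3)
              (fun p => (p.1.sg n).ch F.s n i p.2)
            rw [e]
            refine (Finset.sum_le_sum (g := fun N => (2 ^ (4 * n) : ℝ) * F.a (K - j) N ^ 3) ?_).trans ?_
            · intro N _
              rw [nsmul_eq_mul]
              have h3 : 0 ≤ F.a (K - j) N ^ 3 := pow_nonneg (F.a0 _ _) 3
              have h4 := fiber_card F.s n i U N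
              have h5 : ((((U.sigma fun S => kids n S.τ).filter fun p => (p.1.sg n).ch F.s n i p.2 = N).card : ℕ) : ℝ) ≤ 2 ^ (4 * n) := by
                exact_mod_cast h4
              exact mul_le_mul_of_nonneg_right h5 h3
            · rw [← Finset.mul_sum]
              gcongr
              exact ih (by omega) _ hcap
        _ = _ := by rw [pow_succ]; ring
  have h := key K le_rfl X (by
    intro x hx k
    rw [Nat.sub_self, (hX x hx).1]
    simp)
  rw [Nat.sub_self] at h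
  refine h.trans ?_
  have h1 : (1 : ℝ) ≤ 2 ^ (4 * K * n) := one_le_pow₀ (by norm_num)
  have h2 : 0 ≤ (C ^ 3 * 2 ^ (4 * n) * 2 ^ (4 * n)) ^ K * Real.sqrt Λ * Q := by positivity
  nlinarith

end Vale.Agent.P122.S
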