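import Vale.Agent.P122.S.Core
import Vale.Agent.P122.S.Crude
import Vale.Agent.P122.H563.Prof
import Vale.Agent.P122.H563.Mono
import Vale.Agent.P122.H11.RV

/-! # P122 / S : composition of [RG] and [EN] (helper315)

`StPROF` from the regular structure `StRG` and the entropy blocks `E1`, ..., `E9`. -/

set_option autoImplicit false

namespace Vale.Agent.P122.S

open Vale.Agent.P122.C2 Vale.Agent.P122.E

/-- `StCORE` with `C' = 1` is violated for arbitrarily large `n` -/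
def Viol (δ : ℝ) (K : ℕ) (C : ℝ) : Prop := ∀ n0 : ℕ, ∃ n : ℕ, n0 ≤ n ∧ ∃ (F : Amp C n K) (Λ Q : ℝ),
  KTop F Λ ∧ (∀ U : Finset Nd, ∑ S ∈ U, F.a K S ^ 2 ≤ Q) ∧
  ∃ X : Finset Nd, (∀ x ∈ X, x.τ = 0 ∧ 0 ≤ x.T ∧ x.T < 2 ^ (2 * K * n)) ∧
    2 ^ (δ * (K * n)) * Real.sqrt Λ * 2 ^ (4 * K * n) * Q < ∑ x ∈ X, F.a 0 x ^ 3

/-- [RG] : a violating sequence gives a regular system of flags which violates the real variable inequality -/
def StRG (κ : ℝ) : Prop := ∀ C₀ : ℝ, 1 ≤ C₀ → E8 κ C₀ → ∀ (δ c1 : ℝ), 0 < δ → 0 < c1 → ∃ K1 : ℕ, 1 ≤ K1 ∧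
  ∀ K : ℕ, K1 ≤ K → ∀ C : ℝ, 1 ≤ C → Viol δ K C →
    ∃ (F : Flg K) (J θ H e : ℕ → ℝ) (W : ℕ → F.S.BX) (kk jj : ℕ → ℕ → ℕ) (φ : ℕ → ℕ → Nd → ℝ) (JF : ℕ → ℝ),
      RegB F J θ H e W kk jj κ c1 φ JF ∧ nV K H e 0 + 3 * nE K J θ H K + δ ≤ nV K H e K

/-- the blocks with constants -/
def StE5 : Prop := ∃ C : ℝ, E5 C
def StE6 : Prop := ∃ C : ℝ, E6 C
def StE7 : Prop := ∃ C : ℝ, E7 C
def StE8 : Prop := ∃ κ : ℝ, 0 < κ ∧ ∃ C : ℝ, E8 κ C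
/-- `E9` is not monotone in `κ` (the hypothesis `RegB` and the sum `ng` depend on `κ`) -/
def StE9 : Prop := ∃ κ0 : ℝ, 0 < κ0 ∧ ∀ κ : ℝ, 0 < κ → κ ≤ κ0 → ∃ C : ℝ, E9 κ C

theorem prof_of (h1 : E1) (h2 : E2) (h5 : StE5) (h6 : StE6) (h7 : StE7) (h8 : StE8) (h9 : StE9)
    (hRG : ∀ κ : ℝ, 0 < κ → κ ≤ 1 → StRG κ) : StPROF := by
  obtain ⟨C5, h5⟩ := h5
  obtain ⟨C6, h6⟩ := h6
  obtain ⟨C7, h7⟩ := h7
  obtain ⟨κ8, hκ8, C8, h8⟩ := h8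
  obtain ⟨κ9, hκ9, h9⟩ := h9
  set κ := min 1 (min κ8 κ9) with hκd
  have hκ : 0 < κ := lt_min one_pos (lt_min hκ8 hκ9)
  have hκ1 : κ ≤ 1 := min_le_left _ _
  have hk8 : κ ≤ κ8 := (min_le_right _ _).trans (min_le_left _ _)
  have hk9 : κ ≤ κ9 := (min_le_right _ _).trans (min_le_right _ _)
  obtain ⟨C9, h9⟩ := h9 κ hκ hk9
  set C₀ := max 1 (max C5 (max C6 (max C7 (max C8 C9)))) with hC₀
  have hC1 : 1 ≤ C₀ := le_max_left _ _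
  have e5 : E5 C₀ := H563.E5.mono ((le_max_left _ _).trans (le_max_right _ _)) h5
  have e6 : E6 C₀ := H563.E6.mono (((le_max_left _ _).trans (le_max_right _ _)).trans (le_max_right _ _)) h6
  have e7 : E7 C₀ := H563.E7.mono ((((le_max_left _ _).trans (le_max_right _ _)).trans (le_max_right _ _)).trans
    (le_max_right _ _)) h7
  have e8 : E8 κ C₀ := H563.E8.mono (((((le_max_left _ _).trans (le_max_right _ _)).trans (le_max_right _ _)).trans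
    (le_max_right _ _)).trans (le_max_right _ _)) hk8 h8
  have e9 : E9 κ C₀ := H563.E9.mono (((((le_max_right _ _).trans (le_max_right _ _)).trans (le_max_right _ _)).trans
    (le_max_right _ _)).trans (le_max_right _ _)) h9
  refine ⟨C₀, κ, hC1, hκ, hκ1, fun δ c1 hδ hc1 => ?_⟩
  obtain ⟨K1, hK1, hRG⟩ := hRG κ hκ hκ1 C₀ hC1 e8 δ c1 hδ hc1
  obtain ⟨K2, hK2⟩ := exists_nat_gt (C₀ / c1)
  refine ⟨max K1 K2, le_max_of_le_left hK1, fun K hK C hC => ?_⟩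
  have hKK : 1 ≤ K := hK1.trans ((le_max_left _ _).trans hK)
  have hKp : (0 : ℝ) < K := by exact_mod_cast hKK
  have hCK : C₀ / K ≤ c1 := by
    have h3 : (K2 : ℝ) ≤ K := by exact_mod_cast (le_max_right K1 K2).trans hK
    have h4 := (div_lt_iff₀ hc1).1 hK2
    rw [div_le_iff₀ hKp]
    nlinarith
  by_cases hv : Viol δ K C
  · obtain ⟨F, J, θ, H, e, W, kk, jj, φ, JF, hB, hV⟩ := hRG K ((le_max_left _ _).trans hK) C hC hv
    exact ⟨0, fun n _ F' Λ Q _ _ X _ _ => ⟨_, _, _, _, _, _,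
      H563.prof_of_regB h1 h2 e5 e6 e7 e9 hKK hc1 hCK hB, hV⟩⟩
  · unfold Viol at hv
    push Not at hv
    obtain ⟨n0, hn0⟩ := hv
    refine ⟨n0, fun n hn F' Λ Q hΛ hQ X hX hlt => ?_⟩
    exact absurd hlt (not_lt.2 (hn0 n hn F' Λ Q hΛ hQ X hX))

/-- `StCORE` from the blocks of [RG] and [EN] -/
theorem core (h1 : E1) (h2 : E2) (h5 : StE5) (h6 : StE6) (h7 : StE7) (h8 : StE8) (h9 : StE9)
    (hRG : ∀ κ : ℝ, 0 < κ → κ ≤ 1 → StRG κ) : StCORE :=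
  core_of Vale.Agent.P122.RV.stRV (prof_of h1 h2 h5 h6 h7 h8 h9 hRG) crude

end Vale.Agent.P122.S
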