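import Vale.Agent.P122.C.Defs2
import Vale.Agent.P122.C.RVDefs

/-! # P122 / S : composition of [CORE] (helper315)

`StCORE` from the real variable part `StRV`, the profile `StPROF` (= [RG] + [EN] from P127) and the crude bound
`StCRUDE` for bounded `n`. -/

namespace Vale.Agent.P122.S

open Vale.Agent.P122.C2

/-- a violation of `StCORE` at a large `n` gives a profile which violates the real variable inequality -/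
def StPROF : Prop := ∃ (C0 κ : ℝ), 1 ≤ C0 ∧ 0 < κ ∧ κ ≤ 1 ∧ ∀ (δ c1 : ℝ), 0 < δ → 0 < c1 → ∃ K1 : ℕ, 1 ≤ K1 ∧
  ∀ K : ℕ, K1 ≤ K → ∀ C : ℝ, 1 ≤ C → ∃ n0 : ℕ, ∀ n : ℕ, n0 ≤ n → ∀ (F : Amp C n K) (Λ Q : ℝ),
  KTop F Λ → (∀ U : Finset Nd, ∑ S ∈ U, F.a K S ^ 2 ≤ Q) →
  ∀ X : Finset Nd, (∀ x ∈ X, x.τ = 0 ∧ 0 ≤ x.T ∧ x.T < 2 ^ (2 * K * n)) →
    2 ^ (δ * (K * n)) * Real.sqrt Λ * 2 ^ (4 * K * n) * Q < ∑ x ∈ X, F.a 0 x ^ 3 →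
    ∃ V E M m α g : ℕ → ℝ, Vale.Agent.P122.C.Prof C0 κ c1 K V E M m α g ∧ V 0 + 3 * E K + δ ≤ V K

/-- the crude bound, constants depending on `n` -/
def StCRUDE : Prop := ∀ (K : ℕ) (C : ℝ) (n : ℕ), 1 ≤ C → ∃ C' : ℝ, 0 ≤ C' ∧ ∀ (F : Amp C n K) (Λ Q : ℝ),
  KTop F Λ → (∀ U : Finset Nd, ∑ S ∈ U, F.a K S ^ 2 ≤ Q) →
  ∀ X : Finset Nd, (∀ x ∈ X, x.τ = 0 ∧ 0 ≤ x.T ∧ x.T < 2 ^ (2 * K * n)) →
    ∑ x ∈ X, F.a 0 x ^ 3 ≤ C' * Real.sqrt Λ * 2 ^ (4 * K * n) * Q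

theorem core_of (hRV : Vale.Agent.P122.C.StRV) (hP : StPROF) (hC : StCRUDE) : StCORE := by
  intro δ hδ
  obtain ⟨C0, κ, hC0, hκ, hκ1, hP⟩ := hP
  obtain ⟨c1, K0, hc1, hK0, hRV⟩ := hRV C0 κ (δ / 2) hC0 hκ hκ1 (by positivity)
  obtain ⟨K1, hK1, hP⟩ := hP δ c1 hδ hc1
  refine ⟨max K0 K1, le_max_of_le_left hK0, fun C hC1 => ?_⟩
  set K := max K0 K1 with hK
  obtain ⟨n0, hn0⟩ := hP K (le_max_right _ _) C hC1
  choose c hc0 hc using fun n => hC K C n hC1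
  refine ⟨1 + ∑ n ∈ Finset.range n0, c n, ?_, ?_⟩
  · have : 0 ≤ ∑ n ∈ Finset.range n0, c n := Finset.sum_nonneg fun n _ => hc0 n
    linarith
  intro n F Λ Q hΛ hQ X hX
  have hQ0 : 0 ≤ Q := by simpa using hQ ∅
  have hs : 0 ≤ ∑ n ∈ Finset.range n0, c n := Finset.sum_nonneg fun n _ => hc0 n
  have h1 : (1 : ℝ) ≤ 2 ^ (δ * (K * n)) := by
    apply Real.one_le_rpow (by norm_num)
    positivity
  by_cases hn : n < n0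
  · refine (hc n F Λ Q hΛ hQ X hX).trans ?_
    have h2 : c n ≤ (1 + ∑ n ∈ Finset.range n0, c n) * 2 ^ (δ * (K * n)) := by
      have h3 : c n ≤ ∑ n ∈ Finset.range n0, c n :=
        Finset.single_le_sum (f := c) (fun n _ => hc0 n) (Finset.mem_range.2 hn)
      nlinarith [hc0 n]
    gcongr
  · by_contra hcon
    push Not at hcon
    have h2 : 2 ^ (δ * (K * n)) * Real.sqrt Λ * 2 ^ (4 * K * n) * Q < ∑ x ∈ X, F.a 0 x ^ 3 := by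
      refine lt_of_le_of_lt ?_ hcon
      have h3 : (2 : ℝ) ^ (δ * (K * n)) ≤ (1 + ∑ n ∈ Finset.range n0, c n) * 2 ^ (δ * (K * n)) := by
        nlinarith
      gcongr
    obtain ⟨V, E, M, m, α, g, hprof, hv⟩ := hn0 n (not_lt.1 hn) F Λ Q hΛ hQ X hX h2
    have := hRV K (le_max_left _ _) V E M m α g hprof
    linarith

end Vale.Agent.P122.S
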